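import Crest.Agent.X212.Hp13.Rt

/-! Row 212, RF-NT (helper5): the linearisation is onto modulo the row of the cut. -/

set_option autoImplicit false
set_option linter.unusedSectionVars false
noncomputable section
open scoped Manifold ContDiff Topology InnerProductSpace
open MeasureTheory Set Function Filter

namespace Crest.Agent.X212.Nrx5
open An M Nd18 Mod61 Nk89 Cht98 Rf65 Pte3 Nt66 Sob92 Prm93 Hp13.Rt

theorem sur {X Y₁ Y₂ Y₃ ι : Type} [NormedAddCommGroup X] [NormedSpace ℝ X] [NormedAddCommGroup Y₁]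
    [NormedSpace ℝ Y₁] [NormedAddCommGroup Y₂] [NormedSpace ℝ Y₂] [NormedAddCommGroup Y₃]
    [NormedSpace ℝ Y₃] [Fintype ι] [DecidableEq ι] {K : ι → Type} [∀ i, NormedAddCommGroup (K i)]
    [∀ i, NormedSpace ℝ (K i)] (L : X →L[ℝ] (Y₁ × Y₂ × Y₃) × (∀ i, K i) × (ι → ℝ)) (i : ι)
    (T : K i →L[ℝ] (Y₁ × Y₂ × Y₃) × (∀ i, K i) × (ι → ℝ)) (hT : ∀ v, T v = (0, Pi.single i v, 0))
    (P : Y₁ → Prop) (Q : Y₂ → Prop)
    (o : ∀ e, ∃ v, P (L v - e).1.1 ∧ Q (L v - e).1.2.1 ∧ (L v - e).1.2.2 = 0 ∧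
      ∀ j ≠ i, (L v - e).2.1 j = 0 ∧ (L v - e).2.2 j = 0)
    (hD : ∀ e, P e → ∃ v, (L v).1 = (e, 0) ∧ (∀ j ≠ i, (L v).2.1 j = 0) ∧ (L v).2.2 = 0)
    (hC : ∀ e, Q e → ∃ v, (L v).1 = (0, e, 0) ∧ (∀ j ≠ i, (L v).2.1 j = 0) ∧ (L v).2.2 = 0)
    (hN : ∀ t, (0, 0, Pi.single i t) ∈ range L) : Surjective (L.coprod T) := fun e => by
  obtain ⟨v, p, q, k1, k2⟩ := o e
  obtain ⟨v1, a1, a2, a3⟩ := hD _ p
  obtain ⟨v2, b1, b2, b3⟩ := hC _ q
  obtain ⟨v3, d⟩ := hN ((L v - e).2.2 i)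
  have t : L v - e - L v1 - L v2 - L v3 = T ((L v - e - L v1 - L v2 - L v3).2.1 i) := by
    generalize L v - e = w at *
    rw [hT, d]
    refine Prod.ext ?_ (Prod.ext (funext fun j => ?_) (funext fun j => ?_))
    · show w.1 - (L v1).1 - (L v2).1 - 0 = 0
      rw [a1, b1]
      exact Prod.ext (by simp) (Prod.ext (by simp) (by simpa using k1))
    · by_cases m : j = i
      · subst m; simp
      · simp [m, (k2 j m).1, a2 j m, b2 j m]
    · by_cases m : j = i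
      · subst m; simp [a3, b3]
      · simp [m, (k2 j m).2, a3, b3]
  refine ⟨(v - v1 - v2 - v3, -(L v - e - L v1 - L v2 - L v3).2.1 i), ?_⟩
  rw [ContinuousLinearMap.coprod_apply, map_neg, ← t, map_sub, map_sub, map_sub]
  abel

section job
variable {X : Mf 4} {A κ : Type} [Fintype A] [Fintype κ] {M : Mark X A κ} {W : World M} {c : M.Cl}
  {P P' : Set (Reg A)} (k : P ⊆ P')
include k

theorem ind_in {V : Type} [Zero V] (g : (W.Z c).M → V) {z : (W.Z c).M} (hz : z ∈ W.un c P) :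
    (W.un c P).indicator g z = (W.un c P').indicator g z :=
  (indicator_of_mem hz g).trans (indicator_of_mem (biUnion_subset_biUnion_left k hz) g).symm

theorem idx_in {ι : Type} [Fintype ι] {V : Type} [NormedAddCommGroup V] [InnerProductSpace ℝ V]
    (g : (W.Z c).M → CL V V) (a : ι → ι → ℝ) (z : (W.Z c).M)
    (v : Fm ι V) (e : idx a ((W.un c P).indicator g z) v = v) :
    idx a ((W.un c P').indicator g z) v = v := by
  by_cases hz : z ∈ W.un c P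
  · rwa [← ind_in k g hz]
  · rw [indicator_of_notMem hz] at e
    rw [show v = 0 from e.symm.trans (by ext a : 1; simp), map_zero]

end job

section job2
variable {Wi : Type} {X : Mf 4} {A κ lam : Type} [Fintype A] [Fintype κ] [Fintype lam]
  [DecidableEq lam] {M : Mark X A κ} {W : World M} {N : ML M lam} {Λ : Lns W N}
  {A' h : Type} [Fintype A'] [DecidableEq A'] [Fintype h] {r n : ℕ}
  {J : Job Wi Λ A' h r n} {c : M.Cl} {p : Prt A A' h} {U : Type} [Fintype U] {δ : ℝ}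
  {b : Bp J c} {E : EC b p U δ} [DecidableEq p.H]

set_option maxHeartbeats 800000 in
omit [DecidableEq p.H] in
theorem trf {σ : Cel A'} (H : CS σ E) (t : Tq p U) {P : Set (Reg A)} (h1 : P ⊆ p.P) (h2 : P ⊆ p.P') :
    (∀ e, (∀ z ∉ W.un c P, (b.F p U δ).F0.val 8 E.o.Pm e z = 0) → ∃ e', (b.F p U δ).F0.val 8
      (rf E t P P ∅).Pm e' = (b.F p U δ).F0.val 8 E.o.Pm e) ∧
    (∀ e, (∀ z ∉ W.un c P, (b.F p U δ).F0.val 8 E.o.P2 e z = 0) → ∃ e', (b.F p U δ).F0.val 8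
      (rf E t P P ∅).P2 e' = (b.F p U δ).F0.val 8 E.o.P2 e) ∧
    (∀ e', ∃ e, (b.F p U δ).F0.val 9 E.o.Pp e = (b.F p U δ).F0.val 9 (rf E t P P ∅).Pp e') ∧
    ∀ e', ∃ e, (b.F p U δ).F0.val 9 E.o.P1 e = (b.F p U δ).F0.val 9 (rf E t P P ∅).P1 e' := by
  have T := H.F.sup
  have cl : IsClopen (W.un c P) := An.Job.isClopen_un fun _ e => H.pok.pc _ (h1 e)
  refine ⟨fun e k => exists_rs T (by norm_num) (P := (rf E t P P ∅).Pm) cl
    (fun z hz => ind_in h2 _ hz) e k, fun e k => exists_rs T (by norm_num) (P := (rf E t P P ∅).P2) cl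
    (fun z hz => congrArg (idx _) (ind_in h1 _ hz)) e k,
    fun e => ⟨_, val_ex T (by norm_num) (P := (rf E t P P ∅).Pp) (fun z v e => ?_) e⟩,
    fun e => ⟨_, val_ex T (by norm_num) (P := (rf E t P P ∅).P1)
      (fun z v e => idx_in h1 _ _ z v e) e⟩⟩
  by_cases hz : z ∈ W.un c P
  · exact (DFunLike.congr_fun (ind_in h2 _ hz) v).symm.trans e
  · rw [ind_off e hz, map_zero]

set_option maxHeartbeats 1000000 in
theorem surJ (F : (b.F p U δ).OK) (L : E.C →L[ℝ] E.Y) (i : p.H) {Ω : Set (W.Z c).M}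
    (o : ∀ e, ∃ v, Inn i.1 Ω (L v - e))
    (hD : ∀ e, (∀ z ∉ Ω, (b.F p U δ).F0.val 8 E.o.Pm e z = 0) → ∃ v,
      (b.F p U δ).F0.val 8 E.o.Pm (L v).1.1 = (b.F p U δ).F0.val 8 E.o.Pm e ∧
      (b.F p U δ).F0.val 8 E.o.P2 (L v).1.2.1 = 0 ∧ (L v).1.2.2 = 0 ∧
      (∀ j : p.H, j.1 ≠ i.1 → (L v).2.1 j = 0) ∧ (L v).2.2 = 0)
    (hC : ∀ e, (∀ z ∉ Ω, (b.F p U δ).F0.val 8 E.o.P2 e z = 0) → ∃ v,
      (b.F p U δ).F0.val 8 E.o.Pm (L v).1.1 = 0 ∧
      (b.F p U δ).F0.val 8 E.o.P2 (L v).1.2.1 = (b.F p U δ).F0.val 8 E.o.P2 e ∧ (L v).1.2.2 = 0 ∧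
      (∀ j : p.H, j.1 ≠ i.1 → (L v).2.1 j = 0) ∧ (L v).2.2 = 0)
    (hN : ∀ t, ((0, 0, Pi.single i t) : E.Y) ∈ range L) : Surjective (L.coprod (tg E i)) :=
  sur (X := E.C) L i (tg E i) (fun _ => rfl) _ _
    (fun e => (o e).imp fun _ k => ⟨k.D, k.C, k.S, fun j m => k.T j fun e => m (Subtype.ext e)⟩)
    (fun e k => (hD e k).imp fun _ w => ⟨Y_ext F (by norm_num) w.1 (w.2.1.trans val_zero.symm) w.2.2.1,
      fun j m => w.2.2.2.1 j fun e => m (Subtype.ext e), w.2.2.2.2⟩)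
    (fun e k => (hC e k).imp fun _ w => ⟨Y_ext F (by norm_num) (w.1.trans val_zero.symm) w.2.1 w.2.2.1,
      fun j m => w.2.2.2.1 j fun e => m (Subtype.ext e), w.2.2.2.2⟩) hN

end job2

open G75 Ins26 Jb7
variable {κ lam : Type} [Fintype κ] [Fintype lam] [DecidableEq lam] {Lm : LM κ lam}
  {S : Scene Lm} {D : S.Dat} {i : S.L} {Wi : Type} {r n : ℕ}
  {J : Job Wi (D.Λ i) (S.A ⊕ Unit) S.ls r n} {c : S.M.Cl} {δ : ℝ} {X : Finset S.A}
  {σ : Cel (S.A ⊕ Unit)} {Adm : (Wi →₀ ℝ) → Prop} {n₀ : ℤ} {q : Wi →₀ ℝ} {y : J.Obc c} {l : S.ls}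
  {b : Bp J c} {E : EW J c X σ l b δ} {x : Pnt E.o r} {ψ : E.K} (C : Cx X σ Adm n₀ q y l E x ψ)

set_option maxHeartbeats 800000 in
/-- **onto modulo the row of the cut** -/
theorem h1 [DecidableEq (pW J c (shX S X) σ l.1).H] (o : Out C) (ix : Idx2 C) (d : Dir C)
    (n0 : 0 ≤ idr δ y (hp l.1 false)) (ck : Cki C) (la : LocA C) (lf : LocF C) (f : E.C → E.Y)
    (hf : E.Map q f) : Surjective ((fderiv ℝ f (x.pt 8, ψ)).coprod (tg E C.il)) :=
  have n := nrm_mem C.cs x ψ hf C.il (Abx52.sol_x C).1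
    (row_zero C.cs x ψ C.θ C.il (Abx52.sol_x C))
  have t := trf C.cs x.t (P := {hp l.1 false}) sub_in sub_in
  ix.2.2.elim fun g hg => surJ C.cs.F _ C.il (o f hf)
    (fun e k => (t.1 e k).elim fun e' k' => ((d ix).2 n0 g hg.1 e').elim fun φ m =>
      (t.2.2.1 φ).elim fun φ' m' =>
        have w := lf f hf g hg.1 φ φ' m'
        ⟨_, w.vD.trans ((congrArg _ m).trans k'), w.vC, w.vS, w.vT, w.vN⟩)
    (fun e k => (t.2.1 e k).elim fun e' k' => (ck ix g hg.1 e').elim fun α m =>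
      (t.2.2.2 α).elim fun α' m' =>
        have w := la f hf g hg.1 α α' m'
        ⟨_, w.vD, w.vC.trans ((congrArg _ m).trans k'), w.vS, w.vT, w.vN⟩) n

end Crest.Agent.X212.Nrx5
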