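import Crest.Agent.X212.Cqn41.Nr0
import Crest.Agent.X212.Mp86.St

/-!
# Row 212, NT-R (helper5): the leaf CX
-/

set_option autoImplicit false
set_option linter.unusedSectionVars false
noncomputable section
open scoped Manifold ContDiff Topology InnerProductSpace Real
open MeasureTheory Set Function Filter

namespace Crest.Agent.X212.Nrx5
open An M Nd18 Mod61 Hol14 Eqv71 Rf65 Pte3 Qab60 Nr41
open An.Job (Sol)
open Abel74 (fm fF)
open Mp86.St (hp_some piece_hp eq_hp hp_mem)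

section gen
variable {E : Type} [NormedAddCommGroup E] [NormedSpace ℝ E] [FiniteDimensional ℝ E]
  [MeasurableSpace E] [BorelSpace E]
  {HM : Type} [TopologicalSpace HM] {I : ModelWithCorners ℝ E HM} [I.Boundaryless]
  {M : Type} [TopologicalSpace M] [ChartedSpace HM M] [IsManifold I ∞ M] [T2Space M]
  [MeasurableSpace M] [BorelSpace M] [SecondCountableTopology M] {lam : Type} [Fintype lam]
  {ι : Type} [Fintype ι] {B : Base M ι lam} {G : Geo I M ι lam} {r : ℕ}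
  {c c' : Cfg M ι lam r} {u : M → CL c.m.V c'.m.V} {ζ : Circle} {k : Cut M lam}

theorem coe_cH (hB : B.OK I) {m : Md M ι lam} (H : m.OK I B) (η : Circle) (a : k.H B m) :
    (cH m B k (csE m.J η) a : L2c (Fin m.N)) = Cnt93.LU (csE m.J η) a :=
  have cp := cp_pp hB H k.x0
  It.rH_coe ⟨cp, cp, csE_comm rfl _, csE_comm cp.comm _⟩ a

/-- lines are transported by equivalences -/
theorem line_tr {σ : Pc r B k} (hB : B.OK I) (hG : G.OK B) (hk : k.OK B G.F)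
    (p : PcRel0 B G B G univ univ id (fun x b a => B.P b a x) B.l σ σ) (a : Ad0 c B G)
    (a' : Ad0 c' B G) (e : Mod61.EqOn B G.F univ c c' u ζ)
    (L : ∀ s t, k.Sol B G.F σ c' s → k.Sol B G.F σ c' t →
      ∃ η : Circle, t = cH c'.m B k (csE c'.m.J η) s) (s t : k.H B c.m) (hs : k.Sol B G.F σ c s)
    (ht : k.Sol B G.F σ c t) : ∃ η : Circle, t = cH c.m B k (csE c.m.J η) s := by
  have g := lg_refl hB hG isOpen_univ
  have R := Cnt93.rel_refl (k := k) hB (subset_univ _)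
  have l := g.of_ceq a a' e
  have f := fun x => p.sol g hk hk R ⟨a, a', by simp, by simp, e⟩ ((Cnt93.eqv_iff l R).2 ⟨1, rfl⟩ :
    k.Eqv k B B u x _)
  refine (L _ _ ((f s).2 hs) ((f t).2 ht)).imp fun η h => Cnt93.inj_Rh l R 1 (h.trans (Subtype.ext ?_))
  rw [coe_cH hB a'.ok, Cnt93.coe_Rh l R, Cnt93.coe_Rh l R, coe_cH hB a.ok, Cnt93.LU_LU, Cnt93.LU_LU]
  refine congrArg (fun T => Cnt93.LU T _) (ContinuousLinearMap.ext fun b => ?_)
  show cs c'.m.J _ (cs c'.m.J _ (u k.x0 b)) = cs c'.m.J _ (u k.x0 (cs c.m.J _ b))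
  rw [map_cs (e.m.J _ trivial), cs_mul a'.ok.Jsq, cs_mul a'.ok.Jsq, mul_comm]

theorem fg_tr (hB : B.OK I) (hG : G.OK B) (a : Ad0 c B G) (a' : Ad0 c' B G)
    (e : Mod61.EqOn B G.F univ c c' u ζ) {x : M} (h : c.m.Fg G.F c.W x = 0) :
    c'.m.Fg G.F c'.W x = 0 :=
  (((lg_refl hB hG isOpen_univ).of_ceq a a' e).Fg (mem_univ x)).trans (by rw [h, map_zero])

/-- abelian points are transported by equivalences (after `Abx52.ab_tr`) -/
theorem ab_tr {Ω : Set M} {ξ : M → c.m.A} (hB : B.OK I) (hG : G.OK B) (A : Ab B G Ω c ξ)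
    (a : c'.Adm B G) (e : Mod61.EqOn B G.F Ω c c' u ζ) :
    ∃ ξ', Ab B G Ω c' ξ' ∧ fm G.F c'.m c'.W ξ' = fm G.F c.m c.W ξ := by
  have o := A.rd.op
  have l := (lg_refl hB hG o).of_ceq (ad0 A.adm) (ad0 a) e
  have k := A.rd.toRedOn.iso l
  have v : ∀ x ∈ Ω, Ω.indicator (fun x => cj (u x) (ξ x)) =ᶠ[𝓝 x] fun x => cj (u x) (ξ x) :=
    fun x hx => mem_of_superset (o.mem_nhds hx) fun _ hy => indicator_of_mem hy _
  have R : Loc8.Rd G.F c'.m c'.W Ω (Ω.indicator fun x => cj (u x) (ξ x)) :=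
    ⟨⟨fun x hx => (k.sm x hx).congr_of_eventuallyEq (v x hx),
      fun x hx => (v x hx).eq_of_nhds ▸ k.mem x hx, fun x hx => (v x hx).eq_of_nhds ▸ k.sq x hx,
      fun x hx b => (Wz78.nab_congr b (v x hx)).trans (k.par x hx b)⟩, o,
      fun x hx => indicator_of_notMem hx _⟩
  refine ⟨_, ⟨a, R, fun x hx => (e.Φ x hx).trans (by simp [A.z x hx, cs])⟩, funext fun x => ?_⟩
  by_cases hx : x ∈ Ω
  · have := fun a b => Abel74.fF_iso l hx (A.rd.mem x hx) a b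
    simp only [fF] at this
    simp only [fm, Num57.fm2_apply, fF, indicator_of_mem hx, this]
  · rw [R.fm_off hx, A.rd.fm_off hx]

end gen

section job
variable {Wi : Type} {X : Mf 4} {A κ lam : Type} [Fintype A] [Fintype κ] [Fintype lam]
  [DecidableEq lam] {M : Mark X A κ} {W : World M} {N : ML M lam} {Λ : Lns W N}
  {A' h : Type} [Fintype A'] [DecidableEq A'] [Fintype h] {r n : ℕ}
  {J : Job Wi Λ A' h r n} {c : M.Cl} {σ : Cel A'} {s : A' → ℝ} {a : A'} {x R : A}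
  {q : Wi →₀ ℝ} {δ : ℝ}

theorem un_two (e : c.1 = {x}) : W.un c {hp x true, hp x false} = univ := eq_univ_of_forall fun z =>
  let ⟨_, h1, h2⟩ := Cyl58.exists_pc W.toCaps z
  mem_biUnion (eq_hp (e ▸ h1)) h2

theorem u_hp (b : Bool) : M.sys.U (hp x b) = (M.sys.w x).sd b :=
  Subset.antisymm (fun _ k => k x b (hp_some.2 ⟨rfl, rfl⟩)) fun _ k _ _ e => by
    obtain ⟨rfl, rfl⟩ := hp_some.1 e
    exact k

variable (hJ : J.OK) (hσ : σ ∈ J.𝒦) (hs : J.Ov σ c s)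
include hJ hσ hs

/-- the inside is transported by equivalences -/
theorem ins_tr (hu : J.unc c = univ) {y y' : Cg' W c lam r} {ξ u ζ} (I : Ins J c R q s δ σ y ξ)
    (a' : Ad0 y' (J.B c) (J.G c s)) (e : EqOn (J.B c) (J.G c s).F univ y y' u ζ) :
    ∃ ξ', Ins J c R q s δ σ y' ξ' := by
  have hB := Λ.B_ok J.m c
  have hG := hJ.G_ok hσ hs
  have a := ad0 I.ab.adm
  have e' := ceq_symm_id hB hG isOpen_univ a a' e
  obtain ⟨ξ', A', f⟩ := ab_tr hB hG I.ab ⟨a'.ok, a'.conn, a'.sm, a'.pos,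
    I.ab.adm.z.imp id fun k => (ceq_norm_z e).trans k⟩ (Wrd81.ceq_mono e (subset_univ _))
  replace f : xf J c s y' ξ' = xf J c s y ξ := f
  refine ⟨ξ', I.sc, A', I.ne.imp fun z k => ⟨k.1, fun h => k.2 (fg_tr hB hG a' a e' h)⟩,
    f ▸ I.tak, fun l k => ⟨f ▸ (I.cut l k).1, line_tr hB hG
      (hJ.ct σ hσ s hs.1 c hs.2 l (hu.ge trivial))
      (hJ.σc_nat hσ hs isClopen_univ (hu.ge trivial) (subset_univ _) q) a' a e' (I.cut l k).2⟩⟩

variable (ha : J.hd a = some x)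
include ha

theorem s_one (hx : x ∈ c.1) : s a = 1 :=
  let ⟨_, h1, h2⟩ := hJ.inf σ hσ s hs.1 x (hs.2.ge hx); hJ.inj _ _ _ h1 ha ▸ h2

theorem cmp_of (k : σ a = none) (h0 : x ∉ c.1) : ∀ x' ∈ c.1, M.sys.Cmp x x' := fun x' hx' => by
  obtain ⟨a', h1, h2⟩ := hJ.inf σ hσ _ hs.1 x' (hs.2.ge hx')
  obtain ⟨_, h3, h4⟩ := hJ.lin
  have ne : a' ≠ a := fun e => h0 (Option.some.inj ((e ▸ h1).symm.trans ha) ▸ hx')
  have d : update s a 1 ∈ J.dom σ := ⟨fun a'' v e => (update_of_ne (fun k' => by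
      simp [k', k] at e) _ _).trans (hs.1.1 a'' v e), fun a'' h3 => by
    rcases eq_or_ne a'' a with rfl | k'
    · simp
    · rw [update_of_ne k']; exact hs.1.2 a'' h3⟩
  have e1 : update s a 1 a' = 1 := (update_of_ne ne _ _).trans h2
  refine (hJ.par σ hσ _ d).2 ?_ ?_ fun e => h0 (e ▸ hx')
  · rw [mem_support, (h4 _ _ ha _ (by simpa using h3.le)).1, update_self]; exact one_ne_zero
  · rw [mem_support, (h4 _ _ h1 _ (h3.le.trans e1.ge)).1, e1]; exact one_ne_zero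

end job

section scene
open G75 Ins26 Jb7
variable {κ lam : Type} [Fintype κ] [Fintype lam] [DecidableEq lam] {Lm : LM κ lam}
  {S : Scene Lm} {D : S.Dat} {i : S.L} {Wi : Type} {r n : ℕ}
  {J : Job Wi (D.Λ i) (S.A ⊕ Unit) S.ls r n} {c : S.M.Cl} {R : S.A} {Es : Finset S.A} {b z j : ℕ}
  {n₀ : ℤ} {T : ℝ} {σ : Cel (S.A ⊕ Unit)} {s : S.A ⊕ Unit → ℝ} (H : JR J R Es b z j n₀ T)
include H

theorem card_inn : {l | Inn J R l}.ncard + b = z := by
  classical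
  obtain ⟨_, _, w⟩ := H.ri.rw
  rw [← H.ri.card, ← ncard_image_of_injective _ Subtype.val_injective, ← ncard_coe_finset]
  refine congrArg (fun t : Set S.A => t.ncard + b) (Set.ext fun l => ?_)
  rw [lsI, Finset.coe_filter]
  refine ⟨?_, fun k => ⟨⟨l, k.1⟩, ?_, rfl⟩⟩
  · rintro ⟨l, k, rfl⟩
    rw [mem_ofPred_eq, Inn, u_hp, H.gx.nb] at k
    refine ⟨l.2, union_subset k ?_⟩
    obtain ⟨s, t⟩ := Wall.exists_side (w.cmp l l.2)
    cases s
    · exact t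
    · obtain ⟨x, hx⟩ := (S.M.sys.w l).ne false
      exact ((S.M.sys.w R).not_mem_sd (k hx.2) (t hx.1)).elim
  · rw [mem_ofPred_eq, Inn, u_hp, H.gx.nb]
    exact subset_union_left.trans k.2

theorem b_one (h1 : c.1 = {R}) (hσ : σ ∈ J.𝒦) (o : J.Ov σ c s) {a} (f : Fi J R s σ a) : b = 1 := by
  refine (H.ri.bz.resolve_left fun z => ?_).1
  obtain ⟨τ, u, ρ, rfl, k1, k2, -⟩ := H.gx.cell σ hσ
  obtain ⟨a', k4, k5⟩ := H.gx.ok.inf _ hσ s o.1 R (o.2.ge (h1.ge rfl))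
  obtain ⟨f1, ⟨e, f2, f3⟩, -⟩ := f
  rw [H.gx.hd] at k4 f3
  rcases a with a | _
  swap
  · exact nomatch f3
  rcases a' with a' | _
  swap
  · exact nomatch k4
  obtain rfl : a' = R := by simpa using (Option.ite_none_right_eq_some.1 k4).2
  obtain rfl : a = e := by simpa using (Option.ite_none_right_eq_some.1 f3).2
  have m : a' ∈ τ := by_contra fun m =>
    zero_ne_one ((o.1.1 (.inl a') false (if_neg m)).symm.trans k5)
  have m' : a ∈ τ := by_contra fun m => nomatch (if_neg m).symm.trans f1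
  rcases H.ri.out ρ k2 (k1 m) a (k1 m') with rfl | k | k
  · exact nomatch (hp_some.2 ⟨rfl, rfl⟩).symm.trans f2.1
  · simp [z.2.2] at k
  · obtain ⟨x, hx⟩ := (S.M.sys.w a).ne false
    exact (S.M.sys.w a').not_mem_sd (k hx.1) ((u_hp false).le (f2.2.1 hx.1))

omit H

variable (Lm) in
/-- **LEAF CX** -/
theorem cx : CxStmt Lm := by
  intro S D i Wi r n J c R Es b' z j n₀ T δ σ Adm jr one H q y a ha hy fa ok
  obtain rfl : a = R := singleton_injective (fa.1.2.1.symm.trans one)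
  refine ⟨rfl, fun b E x ψ gd q' ξ hy' I => ?_⟩
  have g := jr.gx
  have np := fa.1.2.2.1
  have hR : a ∈ cylW c := ⟨one.ge rfl, np⟩
  have cs : CS σ E := ⟨⟨H.ok, H.mem, H.loc.pok σ H.mem c _ _ _ (fun _ k => k.elim
    (· ▸ hp_mem one true) (· ▸ hp_mem one false)) subset_rfl⟩, gd.ch.ok, gd.ch.ov, gd.sm⟩
  have θ : b.θ _ _ x.t = y.s := funext fun a' => by
    by_cases v : a' ∈ (pW J c (shX S {a}) σ a).V
    · exact (θ_eq gd.ch.rep.s a' v).symm
    rw [θ_off v]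
    rcases e' : σ a' with _ | t
    swap
    · exact (gd.ch.ov.1.1 a' t e').trans (hy.cell.1 a' t e').symm
    by_cases w : ∃ x, J.hd a' = some x ∧ x ∈ c.1
    · obtain ⟨x, h1, h2⟩ := w
      exact (s_one H.ok H.mem gd.ch.ov h1 h2).trans (s_one H.ok H.mem hy.ov h1 h2).symm
    refine (v ⟨e', fun x h1 h2 => w ⟨x, h1, h2⟩, (em _).imp_right fun h1 => ?_⟩).elim
    obtain ⟨x, h2, rfl⟩ : ∃ x ∈ hard S {a}, a' = .inl x := by simpa [shX] using h1
    have h3 : J.hd (.inl x) = some x := by rw [g.hd]; exact if_pos h2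
    have := S.M.con
    obtain ⟨ρ, ⟨h4, h5⟩, -⟩ := S.M.sys.existsUnique_inn c.2 (fun k => w ⟨x, h3, k⟩)
      (cmp_of H.ok H.mem hy.ov h3 e' fun k => w ⟨x, h3, k⟩)
    exact ⟨ρ, eq_hp (one ▸ h4), x, h5, h3⟩
  obtain ⟨unc, -, nm⟩ := H.num q y a ha hy fa.1
  have eb : y.β a false = y.β a true := by
    have k := hy.brk a hR
    rw [fa.1.2.2.2.1.2 a hR] at k
    generalize e : 0 = t, y.β a false = β, y.β a true = β', y.ζ a false = ζ, y.ζ a true = ζ',
      y.k a = u at k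
    cases k with
    | nil => rfl
    | bub => omega
    | mov => omega
  obtain ⟨_, _, tk⟩ := I.tak
  obtain ⟨a', f, -⟩ := tk ⟨np, H.ok.memBr H.mem hy.ov, H.ok.memO H.mem hy.ov, hR.1⟩
  obtain rfl := b_one jr one H.mem hy.ov f
  have k1 := (H.qr q y a ha hy fa.1 fa.2.1 ok).2.1
  obtain ⟨k2, k3, -⟩ := H.inn q y ha hy _ (hp_mem one false) (u_hp false).le
  have k4 : zc c Es z = z := if_neg fun ⟨e, h1, h2⟩ => np (one.le h2 ▸ (jr.ri.pin e h1).1)
  rw [if_pos (hp_some.2 ⟨rfl, rfl⟩), k4] at k3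
  rw [k1] at k2 k3
  have k5 : (({l | Inn J a l}.ncard : ℤ) : ℝ) + 1 = z := by exact_mod_cast card_inn jr
  obtain ⟨u, ζ, e, -⟩ := gd.ch.rep.e
  have ax : Ad0 x.cfg (J.B c) (J.G c (b.θ _ _ x.t)) := x.ad0 cs.F
  rw [θ] at e ax
  obtain ⟨ξ', I'⟩ := ins_tr H.ok H.mem hy.ov unc I ax (un_two (W := D.W) one ▸ e)
  refine ⟨ξ', ⟨_, _, _, _, _, _, jr⟩, H.toAnH, one, np, unc, hy', fa.1.2.2.2.1, fun k => ?_, gd.ch,
    cs, θ, Int.cast_injective (α := ℝ) ?_, Int.cast_injective (α := ℝ) ?_, I'⟩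
  · cases k
    exacts [eb ▸ (nm fa.2.1 ok).1, (nm fa.2.1 ok).1]
  · push_cast at k2 k5 ⊢
    linarith
  · push_cast
    linarith

end scene
end Crest.Agent.X212.Nrx5
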