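import Crest.Agent.X212.Nrx5.FinA
import Crest.Agent.X212.Cqn41.Nr0

/-! Row 212, NT-R, FIN (helper5). -/

set_option autoImplicit false
set_option linter.unusedSectionVars false
noncomputable section

namespace Crest.Agent.X212.Nrx5
open An M Nd18 Mod61 Nk89 Cht98 Rf65 Pte3

variable {Wi : Type} {X : Mf 4} {A κ lam : Type} [Fintype A] [Fintype κ] [Fintype lam]
  [DecidableEq lam] {M : Mark X A κ} {W : World M} {N : ML M lam} {Λ : Lns W N}
  {A' h : Type} [Fintype A'] [DecidableEq A'] [Fintype h] {r n : ℕ}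

/-- **LEAF FIN** -/
theorem fin (J : Job Wi Λ A' h r n) (c : M.Cl) : Nr41.FinStmt J c :=
  fun _ _ _ _ _ _ _ _ ψ _ _ _ H hx hf => fin_at H ψ hx hf

end Crest.Agent.X212.Nrx5
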