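import Crest.Agent.X212.Pte3.Th

/-! Row 212, NT-R, FIN (helper5): closed range of finite codimension. -/

set_option autoImplicit false
set_option linter.unusedSectionVars false
noncomputable section
open scoped Manifold ContDiff Topology InnerProductSpace
open MeasureTheory Set Function Filter

namespace Crest.Agent.X212.Nrx5
open An M Nd18 Mod61 Nk89 Cht98 Rf65 Pte3 Fred93

section abs
variable {E F G : Type} [NormedAddCommGroup E] [NormedSpace ℝ E] [NormedAddCommGroup F]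
  [NormedSpace ℝ F] [NormedAddCommGroup G] [NormedSpace ℝ G]

/-- forgetting rows of a Fredholm operator -/
theorem fin_of {A : E →L[ℝ] F} {d : ℤ} (hA : Fr A d) (π : F →L[ℝ] G) (s : G →L[ℝ] F)
    (hs : ∀ y, π (s y) = y) {L : E →L[ℝ] G} (hL : ∀ v, L v = π (A v)) :
    IsClosed (range L) ∧ ∃ (m : ℕ) (k : (Fin m → ℝ) →L[ℝ] G), Surjective (L.coprod k) := by
  have := hA.1.finite_coker
  constructor
  · have h1 : IsClosed ((A.range ⊔ π.ker : Submodule ℝ F) : Set F) :=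
      Submodule.isClosed_mono_of_finiteDimensional_quotient hA.1.isClosed_range le_sup_left
    have h2 : range L = s ⁻¹' ((A.range ⊔ π.ker : Submodule ℝ F) : Set F) := by
      ext y
      refine ⟨fun ⟨v, e⟩ => Submodule.mem_sup.2 ⟨A v, ⟨v, rfl⟩, s y - A v, ?_, by abel⟩, fun k => ?_⟩
      · show π (s y - A v) = 0
        rw [map_sub, hs, ← hL, e, sub_self]
      · obtain ⟨_, ⟨v, rfl⟩, z, hz, e⟩ := Submodule.mem_sup.1 k
        refine ⟨v, ?_⟩
        have hz' : π z = 0 := hz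
        rw [hL, ← hs y, ← e, map_add, hz', add_zero]
        rfl
    exact h2 ▸ h1.preimage s.continuous
  · obtain ⟨m, w, hw⟩ := Module.Finite.exists_fin (R := ℝ) (M := F ⧸ A.range)
    choose w' hw' using fun i => A.range.mkQ_surjective (w i)
    refine ⟨m, π ∘L (Fintype.linearCombination ℝ w').toContinuousLinearMap, fun y => ?_⟩
    obtain ⟨a, ha⟩ := (Submodule.mem_span_range_iff_exists_fun ℝ).1
      (hw ▸ Submodule.mem_top (x := A.range.mkQ (s y)))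
    obtain ⟨v, hv⟩ : s y - ∑ i, a i • w' i ∈ A.range := by
      rw [← Submodule.Quotient.mk_eq_zero, ← Submodule.mkQ_apply, map_sub, ← ha, map_sum]
      simp [hw']
    refine ⟨(v, a), ?_⟩
    have hv' : A v = s y - ∑ i, a i • w' i := hv
    simp [hL, hv', hs, Fintype.linearCombination_apply]

theorem ext_fin {W h : Type} [Fintype h] {Q : Prob W} {X : An.Ext Q h} {Adm : (W →₀ ℝ) → Prop}
    (H : X.Ax Adm) {o : Q.O} (q : W →₀ ℝ) {v : X.C o} (hv : v.1 ∈ Q.U o) {s : Q.C o →L[ℝ] G} {d : ℤ}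
    (h1 : Fr ((fderiv ℝ (Q.F o q) v.1).prod s) d) (h2 : ∀ i, Fr (X.T o i q v.1) 0) :
    IsClosed (range (fderiv ℝ (X.prob.F o q) v)) ∧ ∃ (m : ℕ) (k : (Fin m → ℝ) →L[ℝ] X.prob.E o),
      Surjective ((fderiv ℝ (X.prob.F o q) v).coprod k) := by
  obtain ⟨B, hB⟩ := H.hasF q hv
  refine fin_of ((h1.tri' B (fr_dgl h2)).prod ((ContinuousLinearMap.pi fun i =>
    ((2 : ℝ) • innerSL ℝ (v.2 i)) ∘L .proj i) ∘L .snd ℝ _ _))
    ((.fst ℝ _ _ ∘L .fst ℝ _ _ ∘L .fst ℝ _ _ : _ →L[ℝ] _).prod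
      ((.snd ℝ _ _ ∘L .fst ℝ _ _ : _ →L[ℝ] _).prod (.snd ℝ _ _)))
    (((.inl ℝ _ _ ∘L .fst ℝ _ _ : _ →L[ℝ] _).prod (.fst ℝ _ _ ∘L .snd ℝ _ _)).prod
      (.snd ℝ _ _ ∘L .snd ℝ _ _)) (fun _ => rfl) fun u => ?_
  rw [hB.fderiv]
  rfl

end abs

variable {Wi : Type} {X : Mf 4} {A κ lam : Type} [Fintype A] [Fintype κ] [Fintype lam]
  [DecidableEq lam] {M : Mark X A κ} {W : World M} {N : ML M lam} {Λ : Lns W N}
  {A' h : Type} [Fintype A'] [DecidableEq A'] [Fintype h] {r n : ℕ}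
  {J : Job Wi Λ A' h r n} {c : M.Cl} {σ : Cel A'} {p : Prt A A' h} {U : Type} [Fintype U] {δ : ℝ}
  {b : Bp J c} {E : EC b p U δ} {q : Wi →₀ ℝ}

set_option maxHeartbeats 1600000 in
theorem fin_at (H : CS σ E) {x : Pnt E.o r} (ψ : E.K) {d : ℤ} (hx : Idx 8 (EC.tot b p U δ q) x d)
    {f : E.C → E.Y} (hf : E.Map q f) : IsClosed (range (fderiv ℝ f (x.pt 8, ψ))) ∧
      ∃ (m : ℕ) (k : (Fin m → ℝ) →L[ℝ] E.Y), Surjective ((fderiv ℝ f (x.pt 8, ψ)).coprod k) := by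
  have g := H.th_ok (K := fun _ => True) (d := 0) (Adm := fun _ => False)
    (fun _ _ _ _ _ _ _ => trivial) (fun _ _ => .of_forall fun _ _ _ => trivial) fun _ _ => False.elim
  have e : fderiv ℝ f (x.pt 8, ψ) = fderiv ℝ ((H.pb g).F () q) (x.pt 8, ψ) :=
    EventuallyEq.fderiv_eq (eventually_of_mem (((isOpen_U H.F).prod isOpen_univ).mem_nhds
      ⟨x.mem_U, trivial⟩) (H.map_eq hf (H.map g)))
  have h1 := hx.slc H.F (by norm_num) (g.repF () q)
  have h2 := fun i => (H.cu_ok _ _).fred g q () i x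
  have a := (H.cu_ok _ _).ax g
  rw [e]
  exact ext_fin a (o := ()) q (v := (x.pt 8, ψ)) x.mem_U h1 h2

end Crest.Agent.X212.Nrx5
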