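import Crest.Agent.X212.Nrx5.H1
import Crest.Agent.X212.Nta64.Job

/-! Row 212, RF-NT (helper5): the assembly of the leaves. -/

set_option autoImplicit false
set_option linter.unusedSectionVars false
noncomputable section
open scoped Manifold ContDiff Topology InnerProductSpace
open MeasureTheory Set Function Filter

namespace Crest.Agent.X212.Nrx5
open An M Nd18 Mod61 Nk89 Cht98 Rf65 Pte3 Nt66 Sob92 Prm93 Hp13.Rt
open An.Job (Sol)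

section job
variable {Wi : Type} {X : Mf 4} {A κ lam : Type} [Fintype A] [Fintype κ] [Fintype lam]
  [DecidableEq lam] {M : Mark X A κ} {W : World M} {N : ML M lam} {Λ : Lns W N}
  {A' h : Type} [Fintype A'] [DecidableEq A'] [Fintype h] {r n : ℕ}
  {J : Job Wi Λ A' h r n} {c : M.Cl} {p : Prt A A' h} {U : Type} [Fintype U] {δ : ℝ}
  {b : Bp J c} {E : EC b p U δ}

theorem hs_in (F : (b.F p U δ).OK) (t : Tq p U) {P : Set (Reg A)} (k : P ⊆ p.P) {α}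
    (hα : α ∈ Mod61.Hs (b.F p U δ).F0.toPre (rf E t P P ∅).P1) :
    α ∈ Mod61.Hs (b.F p U δ).F0.toPre E.o.P1 ∧ (∀ z ∉ W.un c P, α z = 0) ∧
    (b.F p U δ).F0.val 9 E.o.P1 (ofV _ 9 _ α) =
      (b.F p U δ).F0.val 9 (rf E t P P ∅).P1 (ofV _ 9 _ α) := by
  have a : α ∈ Mod61.Hs (b.F p U δ).F0.toPre E.o.P1 :=
    hs_ex F.sup (P := (rf E t P P ∅).P1) (fun z v e => idx_in k _ _ z v e) hα
  refine ⟨a, fun z hz => (Hs_proj F.sup hα z).symm.trans ?_,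
    (val_ofV a (by norm_num)).trans (val_ofV hα (by norm_num)).symm⟩
  have e : (rf E t P P ∅).Pg z = 0 := indicator_of_notMem hz _
  rw [Ref.P1, e]
  ext a : 1
  simp

end job

open G75 Ins26 Jb7
variable {κ lam : Type} [Fintype κ] [Fintype lam] [DecidableEq lam] {Lm : LM κ lam}

theorem nf_and {P Q : ∀ {S : Scene Lm} {D : S.Dat} {i Wi r n}
    {J : Job Wi (D.Λ i) (S.A ⊕ Unit) S.ls r n} {c : S.M.Cl} {δ : ℝ} {X σ Adm n₀ q} {y : J.Obc c}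
    {l b} {E : EW J c X σ l b δ} {x ψ}, Cx X σ Adm n₀ q y l E x ψ → Prop}
    (h1 : NfStmt Lm P) (h2 : NfStmt Lm Q) : NfStmt Lm fun C => P C ∧ Q C := by
  intro S D i Wi r n J X a₀ j n₀ T c g a pj
  obtain ⟨d, d0, k⟩ := h1 S D i Wi r n J X a₀ j n₀ T c g a pj
  obtain ⟨e, e0, k'⟩ := h2 S D i Wi r n J X a₀ j n₀ T c g a pj
  refine ⟨min d e, lt_min d0 e0, fun δ m => ((k δ ⟨m.1, m.2.trans (min_le_left _ _)⟩).and
    (k' δ ⟨m.1, m.2.trans (min_le_right _ _)⟩)).mono ?_⟩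
  intro _ h σ q y l b E x ψ C
  exact ⟨h.1 σ q y l b E x ψ C, h.2 σ q y l b E x ψ C⟩

variable {S : Scene Lm} {D : S.Dat} {i : S.L} {Wi : Type} {r n : ℕ}
  {J : Job Wi (D.Λ i) (S.A ⊕ Unit) S.ls r n} {c : S.M.Cl} {δ : ℝ} {X : Finset S.A}
  {σ : Cel (S.A ⊕ Unit)} {Adm : (Wi →₀ ℝ) → Prop} {n₀ : ℤ} {q : Wi →₀ ℝ} {y : J.Obc c} {l : S.ls}
  {b : Bp J c} {E : EW J c X σ l b δ} {x : Pnt E.o r} {ψ : E.K} (C : Cx X σ Adm n₀ q y l E x ψ)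

set_option maxHeartbeats 800000 in
theorem nt_at (nu : Num C) (ix : Idx2 C) (ab : Abx C) (d : Dir C) (ck : Cki C) (ke : Ker C)
    (o : Out C) (so : Sop C) (rw : Rwj C) (rc : Rcj C) (la : LocA C) (lf : LocF C) :
    ∃ qq : ℕ → Wi →₀ ℝ, St.Cv atTop qq q ∧ ∀ᶠ k in atTop, Sol σ (qq k) y ∧ E.Reg (qq k) x ψ := by
  classical
  refine ab.elim fun ξ A => (rw ξ A).elim fun pr p => ix.2.2.elim fun g hg => ?_
  have n2 : 2 ≤ ia δ y (hp l.1 false) := by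
    have a := (d ix).1
    have a' := nu.2.1
    omega
  refine (ke ix n2 nu.1 ξ A.1 g hg.1).elim fun a ha => ?_
  have hs := fun t => hs_in C.cs.F x.t (P := {hp l.1 false}) sub_in (ha t).1
  refine (Nta64.core C.cs x ψ (i := C.il) C.θ (h1 C o ix d nu.2.2 ck la lf) pr p.1 a
    (fun t => (hs t).1) (fun f hf t => ?_) fun t ht χ hχ => ?_).elim fun q' m => ?_
  · have w := la f hf g hg.1 _ _ (hs t).2.2
    exact ⟨_, Nta64.eq_tg C.cs (i := C.il) w.vD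
      (w.vC.trans ((congrArg _ (ha t).2.1).trans val_zero)) w.vS w.vT w.vN⟩
  · refine (rc ξ A (a t) (hs t).1 (hs t).2.1 ((ha t).2.2 ht)).elim fun ν hν => ?_
    obtain ⟨u, v, w, k⟩ := p.2 χ hχ ν hν.1 hν.2.1
    exact (hν.2.2 u v w).elim fun q' e => ⟨q', _, e.1, e.2.1, e.2.2, k⟩
  · obtain ⟨t, t1, t2⟩ := Nta64.cv_seq q q' m.2
    refine ⟨_, t1, t2.mono fun k e => ⟨?_, e⟩⟩
    have z := (Nta64.Pl x y.s l).smul_mem (t k) m.1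
    exact so _ z.1 ((congrArg (· (ψ C.il)) z.2).trans rfl)

/-- all leaves -/
def Lv : Prop := Num C ∧ Idx2 C ∧ Abx C ∧ Dir C ∧ Cki C ∧ Ker C ∧ Out C ∧ Sop C ∧ Rwj C ∧ Rcj C ∧
  LocA C ∧ LocF C

theorem nt_lv (L : Lv C) :
    ∃ qq : ℕ → Wi →₀ ℝ, St.Cv atTop qq q ∧ ∀ᶠ k in atTop, Sol σ (qq k) y ∧ E.Reg (qq k) x ψ :=
  nt_at C L.1 L.2.1 L.2.2.1 L.2.2.2.1 L.2.2.2.2.1 L.2.2.2.2.2.1 L.2.2.2.2.2.2.1
    L.2.2.2.2.2.2.2.1 L.2.2.2.2.2.2.2.2.1 L.2.2.2.2.2.2.2.2.2.1 L.2.2.2.2.2.2.2.2.2.2.1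
    L.2.2.2.2.2.2.2.2.2.2.2

omit C in
theorem nt_of (cx : CxStmt Lm) (h : NfStmt Lm Lv) : NtStmt Lm := by
  intro S D i Wi r n J X a₀ j n₀ T c g a pj
  obtain ⟨d, d0, k⟩ := cx S D i Wi r n J X a₀ j n₀ T c g a pj
  obtain ⟨e, e0, k'⟩ := h S D i Wi r n J X a₀ j n₀ T c g a pj
  refine ⟨min d e, lt_min d0 e0, fun δ m => ((k δ ⟨m.1, m.2.trans (min_le_left _ _)⟩).and
    (k' δ ⟨m.1, m.2.trans (min_le_right _ _)⟩)).mono ?_⟩
  intro Adm h σ h1 h2 h3 h4 q y x' h5 h6 h7 h8 h9 _ b E x ψ gd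
  refine (h.1 σ h1 h2 h3 h4 q y x' h5 h6 h7 h8 h9).elim fun m C => ?_
  have C := C b E x ψ gd
  have L := nt_lv C (h.2 σ q y ⟨x', m⟩ b E x ψ C)
  exact L

omit C in
/-- **NT** from the leaves -/
theorem nt (cx : CxStmt Lm) (nu : NfStmt Lm Num) (ix : NfStmt Lm Idx2) (ab : NfStmt Lm Abx)
    (d : NfStmt Lm Dir) (ck : NfStmt Lm Cki) (ke : NfStmt Lm Ker) (o : NfStmt Lm Out)
    (so : NfStmt Lm Sop) (rw : NfStmt Lm Rwj) (rc : NfStmt Lm Rcj) (la : NfStmt Lm LocA)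
    (lf : NfStmt Lm LocF) : NtStmt Lm :=
  nt_of cx (nf_and nu (nf_and ix (nf_and ab (nf_and d (nf_and ck (nf_and ke (nf_and o (nf_and so
    (nf_and rw (nf_and rc (nf_and la lf)))))))))) :)

end Crest.Agent.X212.Nrx5
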